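import Mathlib

set_option autoImplicit false

namespace Crest.Agent.Lib.Conformal

open Filter Topology Set

theorem deriv_ne_zero_of_injOn {U : Set ℂ} {f : ℂ → ℂ} (hU : IsOpen U)
    (hf : DifferentiableOn ℂ f U) (hinj : Set.InjOn f U) {z : ℂ} (hz : z ∈ U) : deriv f z ≠ 0 := by
  have hUz := hU.mem_nhds hz
  have ha : AnalyticAt ℂ (fun w => f w - f z) z := (hf.analyticAt hUz).sub analyticAt_const
  have hne : ¬ ∀ᶠ w in 𝓝 z, f w - f z = 0 := by
    intro h
    have h2 : ∀ᶠ w in 𝓝[≠] z, False := by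
      filter_upwards [nhdsWithin_le_nhds h, nhdsWithin_le_nhds hUz, self_mem_nhdsWithin]
        with w h1 h2 h3
      exact h3 (hinj h2 hz (sub_eq_zero.1 h1))
    exact h2.exists.elim fun _ h => h
  obtain ⟨n, g, hg, hg0, hfg⟩ := ha.exists_eventuallyEq_pow_smul_nonzero_iff.2 hne
  have hn0 : n ≠ 0 := by
    rintro rfl
    apply hg0
    simpa using hfg.self_of_nhds.symm
  by_cases hn1 : n = 1
  · subst hn1
    have h1 : HasDerivAt (fun w => (w - z) * g w) (g z) z := by
      have := ((hasDerivAt_id' z).sub_const z).fun_mul hg.differentiableAt.hasDerivAt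
      rwa [one_mul, sub_self, zero_mul, add_zero] at this
    have h2 : HasDerivAt (fun w => f w - f z) (g z) z :=
      h1.congr_of_eventuallyEq (by filter_upwards [hfg] with w hw; simpa using hw)
    rw [(hasDerivAt_sub_const_iff _).1 h2 |>.deriv]
    exact hg0
  exfalso
  obtain ⟨c, hc⟩ := IsAlgClosed.exists_pow_nat_eq (g z) (Nat.pos_of_ne_zero hn0)
  have hc0 : c ≠ 0 := by
    rintro rfl
    exact hg0 (by rw [← hc, zero_pow hn0])
  let r : ℂ → ℂ := fun w => c * Complex.exp (Complex.log (g w / g z) / n)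
  have hr : AnalyticAt ℂ r z := by
    refine analyticAt_const.mul (AnalyticAt.cexp' (AnalyticAt.div_const (AnalyticAt.clog
      hg.div_const ?_)))
    simp [hg0]
  have hrz : r z ≠ 0 := mul_ne_zero hc0 (Complex.exp_ne_zero _)
  have h1 : HasStrictDerivAt (fun w => (w - z) * r w) (r z) z := by
    have h0 : HasStrictDerivAt (fun w : ℂ => w - z) 1 z := (hasStrictDerivAt_id z).sub_const z
    have := h0.fun_mul hr.hasStrictDerivAt
    rwa [one_mul, sub_self, zero_mul, add_zero] at this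
  have h2 := h1.map_nhds_eq hrz
  simp only [sub_self, zero_mul] at h2
  have h3 : {w | w ∈ U ∧ f w - f z = ((w - z) * r w) ^ n} ∈ 𝓝 z := by
    filter_upwards [hUz, hfg, hg.continuousAt.eventually_ne hg0] with w h1 h2 h3
    refine ⟨h1, ?_⟩
    rw [h2, mul_pow, mul_pow, hc, ← Complex.exp_nat_mul, mul_div_cancel₀ _ (Nat.cast_ne_zero.2 hn0),
      Complex.exp_log (div_ne_zero h3 hg0), mul_div_cancel₀ _ hg0, smul_eq_mul]
  have h4 := image_mem_map (m := fun w => (w - z) * r w) h3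
  rw [h2] at h4
  have hζ := Complex.isPrimitiveRoot_exp n hn0
  set ζ := Complex.exp (2 * Real.pi * Complex.I / n)
  have h5 : Tendsto (fun e : ℂ => ζ * e) (𝓝 0) (𝓝 0) := by
    exact (continuous_const_mul ζ).tendsto' 0 0 (mul_zero ζ)
  have h6 : ∀ᶠ e in 𝓝[≠] (0 : ℂ), False := by
    filter_upwards [nhdsWithin_le_nhds h4, nhdsWithin_le_nhds (h5 h4), self_mem_nhdsWithin]
      with e h1 h2 h3
    obtain ⟨w₁, ⟨a1, a2⟩, a3⟩ := h1
    obtain ⟨w₂, ⟨b1, b2⟩, b3⟩ := h2
    simp only at a3 b3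
    have : w₁ = w₂ := by
      refine hinj a1 b1 ?_
      rw [a3] at a2
      rw [b3, mul_pow, hζ.pow_eq_one, one_mul, ← a2] at b2
      exact (sub_left_inj.1 b2).symm
    subst this
    rw [a3] at b3
    exact hζ.ne_one (by omega) (mul_right_cancel₀ h3 (by rw [← b3, one_mul]))
  exact h6.exists.elim fun _ h => h

theorem exists_inverse_of_injOn {U : Set ℂ} {f : ℂ → ℂ} (hU : IsOpen U)
    (hf : DifferentiableOn ℂ f U) (hinj : Set.InjOn f U) :
    IsOpen (f '' U) ∧ ∃ g : ℂ → ℂ, DifferentiableOn ℂ g (f '' U) ∧ ∀ z ∈ U, g (f z) = z := by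
  have hs : ∀ z ∈ U, HasStrictDerivAt f (deriv f z) z := fun z hz =>
    (hf.analyticAt (hU.mem_nhds hz)).hasStrictDerivAt
  refine ⟨isOpen_iff_mem_nhds.2 ?_, Function.invFunOn f U, ?_,
    fun z hz => hinj.leftInvOn_invFunOn hz⟩
  · rintro _ ⟨z, hz, rfl⟩
    rw [← (hs z hz).map_nhds_eq (deriv_ne_zero_of_injOn hU hf hinj hz)]
    exact image_mem_map (hU.mem_nhds hz)
  · rintro _ ⟨z, hz, rfl⟩
    refine ((hs z hz).to_local_left_inverse (deriv_ne_zero_of_injOn hU hf hinj hz)
      ?_).hasDerivAt.differentiableAt.differentiableWithinAt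
    filter_upwards [hU.mem_nhds hz] with w hw using hinj.leftInvOn_invFunOn hw

end Crest.Agent.Lib.Conformal
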