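import Crest.Agent.Lib.Conformal.Inj
import Crest.Agent.R132.Defs

set_option autoImplicit false

namespace Crest.Agent.Lib.Conformal

open Filter Topology Set Metric
open scoped ComplexConjugate

/-- The disc automorphism sending `a` to `0`. -/
noncomputable def mob (a w : ℂ) : ℂ := (w - a) / (1 - conj a * w)

theorem mob_den_ne {a w : ℂ} (ha : ‖a‖ < 1) (hw : ‖w‖ < 1) : 1 - conj a * w ≠ 0 := by
  intro h
  have h1 : ‖conj a * w‖ = 1 := by rw [← sub_eq_zero.1 h, norm_one]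
  rw [norm_mul, Complex.norm_conj] at h1
  nlinarith [norm_nonneg a, norm_nonneg w]

theorem norm_mob_lt {a w : ℂ} (ha : ‖a‖ < 1) (hw : ‖w‖ < 1) : ‖mob a w‖ < 1 := by
  rw [mob, norm_div, div_lt_one (norm_pos_iff.2 (mob_den_ne ha hw))]
  refine lt_of_pow_lt_pow_left₀ 2 (norm_nonneg _) ?_
  have h1 : ‖1 - conj a * w‖ ^ 2 - ‖w - a‖ ^ 2 = (1 - ‖a‖ ^ 2) * (1 - ‖w‖ ^ 2) := by
    simp only [Complex.sq_norm, Complex.normSq_apply, Complex.sub_re, Complex.sub_im,
      Complex.mul_re, Complex.mul_im, Complex.conj_re, Complex.conj_im, Complex.one_re,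
      Complex.one_im]
    ring
  have h2 : 0 < 1 - ‖a‖ ^ 2 := by nlinarith [norm_nonneg a]
  have h3 : 0 < 1 - ‖w‖ ^ 2 := by nlinarith [norm_nonneg w]
  nlinarith [mul_pos h2 h3]

theorem one_sub_conj_mul_self (a : ℂ) : 1 - conj a * a = ((1 - ‖a‖ ^ 2 : ℝ) : ℂ) := by
  rw [Complex.conj_mul']; push_cast; ring

theorem mob_inj {a v w : ℂ} (ha : ‖a‖ < 1) (hv : ‖v‖ < 1) (hw : ‖w‖ < 1)
    (h : mob a v = mob a w) : v = w := by
  rw [mob, mob, div_eq_div_iff (mob_den_ne ha hv) (mob_den_ne ha hw)] at h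
  have h1 : (1 - conj a * a) * (v - w) = 0 := by linear_combination h
  exact sub_eq_zero.1 ((mul_eq_zero.1 h1).resolve_left (mob_den_ne ha ha))

theorem hasDerivAt_mob {a w : ℂ} (ha : ‖a‖ < 1) (hw : ‖w‖ < 1) :
    HasDerivAt (mob a) ((1 - conj a * a) / (1 - conj a * w) ^ 2) w := by
  have h1 : HasDerivAt (fun w : ℂ => w - a) 1 w := (hasDerivAt_id' w).sub_const a
  have h2 : HasDerivAt (fun w : ℂ => 1 - conj a * w) (-(conj a * 1)) w :=
    ((hasDerivAt_id' w).const_mul (conj a)).const_sub 1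
  refine (h1.fun_div h2 (mob_den_ne ha hw)).congr_deriv ?_
  congr 1
  ring

theorem hasDerivAt_sqrt_branch {s h : ℂ → ℂ} {z h' : ℂ} (hs : ContinuousAt s z)
    (hsh : ∀ w, s w ^ 2 = h w) (h0 : s z ≠ 0) (hh : HasDerivAt h h' z) :
    HasDerivAt s (h' / (2 * s z)) z := by
  rw [hasDerivAt_iff_tendsto_slope] at hh ⊢
  have h1 : Tendsto (fun w => s w + s z) (𝓝[≠] z) (𝓝 (2 * s z)) := by
    rw [two_mul]
    exact (hs.tendsto.mono_left nhdsWithin_le_nhds).add_const _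
  have h2 : (2 * s z) ≠ 0 := mul_ne_zero two_ne_zero h0
  refine (hh.div h1 h2).congr' ?_
  filter_upwards [h1.eventually_ne h2] with w hw
  simp only [Pi.div_apply, slope_def_field, ← hsh]
  rw [div_div, mul_comm, ← div_div]
  congr 1
  field_simp
  ring

/-- The competing family. -/
structure Fam (D : Set ℂ) (z₀ : ℂ) (f : ℂ → ℂ) : Prop where
  diff : DifferentiableOn ℂ f D
  inj : InjOn f D
  maps : MapsTo f D (ball 0 1)
  zero : f z₀ = 0

theorem Fam.improve {D : Set ℂ} {z₀ : ℂ} {f : ℂ → ℂ} (hD : IsOpen D) (hc : IsSimplyConnected D)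
    (hz : z₀ ∈ D) (hf : Fam D z₀ f) {a : ℂ} (ha : ‖a‖ < 1) (hna : a ∉ f '' D) :
    ∃ g, Fam D z₀ g ∧ ‖deriv f z₀‖ < ‖deriv g z₀‖ := by
  have hfb : ∀ z ∈ D, ‖f z‖ < 1 := fun z hz => mem_ball_zero_iff.1 (hf.maps hz)
  have hd : ∀ z ∈ D, HasDerivAt (fun z => mob a (f z))
      ((1 - conj a * a) / (1 - conj a * f z) ^ 2 * deriv f z) z := fun z hz =>
    (hasDerivAt_mob ha (hfb z hz)).comp z (hf.diff.differentiableAt (hD.mem_nhds hz)).hasDerivAt
  have hne : ∀ z ∈ D, mob a (f z) ≠ 0 := fun z hz =>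
    div_ne_zero (sub_ne_zero.2 fun h => hna ⟨z, hz, h⟩) (mob_den_ne ha (hfb z hz))
  obtain ⟨s, hsc, hs⟩ := Complex.exists_continuousOn_pow_eq hc hD (g := fun z => mob a (f z))
    (fun z hz => (hd z hz).continuousAt.continuousWithinAt)
    (by rintro ⟨z, hz, h⟩; exact hne z hz h) two_ne_zero
  have hs0 : ∀ z ∈ D, s z ≠ 0 := fun z hz h => hne z hz (by rw [← hs, h]; simp)
  have hs1 : ∀ z ∈ D, ‖s z‖ < 1 := fun z hz => by
    have := norm_mob_lt ha (hfb z hz)
    rw [← hs, norm_pow] at this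
    exact (sq_lt_one_iff₀ (norm_nonneg _)).1 this
  have hsd := fun z hz => hasDerivAt_sqrt_branch (hsc.continuousAt (hD.mem_nhds hz)) hs (hs0 z hz)
    (hd z hz)
  have hgd := fun z hz => (hasDerivAt_mob (hs1 z₀ ‹_›) (hs1 z hz)).comp z (hsd z hz)
  refine ⟨mob (s z₀) ∘ s, ⟨fun z hz => (hgd z hz).differentiableAt.differentiableWithinAt,
    fun z h1 w h2 h => ?_, fun z h => mem_ball_zero_iff.2 (norm_mob_lt (hs1 z₀ hz) (hs1 z h)),
    by simp [mob]⟩, ?_⟩
  · have h3 := mob_inj (hs1 z₀ hz) (hs1 z h1) (hs1 w h2) h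
    refine hf.inj h1 h2 (mob_inj ha (hfb z h1) (hfb w h2) ?_)
    rw [← hs, ← hs, h3]
  · rw [(hgd z₀ hz).deriv, hf.zero]
    have h1 : ‖a‖ = ‖s z₀‖ ^ 2 := by
      rw [← norm_pow, hs, hf.zero]; simp [mob]
    have h2 := norm_pos_iff.2 (deriv_ne_zero_of_injOn hD hf.diff hf.inj hz)
    have h3 := norm_pos_iff.2 (hs0 z₀ hz)
    have h4 := hs1 z₀ hz
    rw [one_sub_conj_mul_self, one_sub_conj_mul_self, h1]
    set b := ‖s z₀‖ with hb
    have h5 : 0 < 1 - b ^ 2 := by nlinarith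
    have h6 : 0 < 1 - (b ^ 2) ^ 2 := by nlinarith
    simp only [norm_mul, norm_div, norm_pow, Complex.norm_real, Real.norm_of_nonneg h5.le,
      Real.norm_of_nonneg h6.le, mul_zero, sub_zero, one_pow, div_one,
      Complex.norm_ofNat, ← hb]
    rw [show (1 - b ^ 2) / (1 - b ^ 2) ^ 2 * ((1 - (b ^ 2) ^ 2) * ‖deriv f z₀‖ / (2 * b)) =
      (1 + b ^ 2) / (2 * b) * ‖deriv f z₀‖ by field_simp; ring]
    refine lt_mul_of_one_lt_left h2 ?_
    rw [one_lt_div (by positivity)]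
    nlinarith [pow_pos (sub_pos.2 h4) 2]

theorem montel {ι : Type*} {D : Set ℂ} (hD : IsOpen D) (F : ι → ℂ → ℂ) (𝒰 : Ultrafilter ι)
    (hF : ∀ n, DifferentiableOn ℂ (F n) D) (hb : ∀ n, MapsTo (F n) D (ball 0 1)) :
    ∃ f, TendstoLocallyUniformlyOn F f 𝒰 D := by
  have h1 : ∀ z, ∃ w, z ∈ D → Tendsto (fun n => F n z) 𝒰 (𝓝 w) := by
    intro z
    by_cases hz : z ∈ D
    · obtain ⟨w, -, hw⟩ := (isCompact_closedBall (0 : ℂ) 1).ultrafilter_le_nhds
        (𝒰.map fun n => F n z) (le_principal_iff.2 (by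
          exact mem_map.2 (univ_mem' fun n => ball_subset_closedBall (hb n hz))))
      exact ⟨w, fun _ => hw⟩
    · exact ⟨0, fun h => absurd h hz⟩
  choose f hf using h1
  refine ⟨f, Metric.tendstoLocallyUniformlyOn_iff.2 fun ε hε x hx => ?_⟩
  obtain ⟨R, hR, hRD⟩ := Metric.isOpen_iff.1 hD x hx
  have hL : ∀ n, ∀ y ∈ ball x R, dist (F n y) (F n x) ≤ 2 / R * dist y x := fun n y hy =>
    Complex.dist_le_div_mul_dist_of_mapsTo_ball ((hF n).mono hRD) (fun w hw => by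
      have a1 := mem_ball.1 (hb n (hRD hw))
      have a2 := mem_ball.1 (hb n hx)
      have := dist_triangle_right (F n w) (F n x) 0
      exact mem_closedBall.2 (by linarith)) hy
  have hL' : ∀ y ∈ ball x R, dist (f y) (f x) ≤ 2 / R * dist y x := fun y hy =>
    le_of_tendsto' ((hf y (hRD hy)).dist (hf x hx)) fun n => hL n y hy
  refine ⟨ball x (min R (ε * R / 8)), nhdsWithin_le_nhds (ball_mem_nhds _ (by positivity)), ?_⟩
  filter_upwards [Metric.tendsto_nhds.1 (hf x hx) (ε / 2) (by positivity)] with n hn y hy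
  have a1 : y ∈ ball x R := ball_subset_ball (min_le_left _ _) hy
  have a2 : 2 / R * dist y x ≤ ε / 4 := by
    have : dist y x ≤ ε * R / 8 := (mem_ball.1 hy).le.trans (min_le_right _ _)
    calc 2 / R * dist y x ≤ 2 / R * (ε * R / 8) := by gcongr
      _ = _ := by field_simp; ring
  have a3 := dist_triangle4 (f y) (f x) (F n x) (F n y)
  have a4 := hL n y a1
  have a5 := hL' y a1
  rw [dist_comm] at a4 hn
  linarith

theorem hurwitz {ι : Type*} {D : Set ℂ} (hD : IsOpen D) (hc : IsPreconnected D) {F : ι → ℂ → ℂ}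
    {f : ℂ → ℂ} {φ : Filter ι} [φ.NeBot] (hF : ∀ n, DifferentiableOn ℂ (F n) D)
    (hinj : ∀ n, InjOn (F n) D) (h : TendstoLocallyUniformlyOn F f φ D)
    (hnc : ¬ ∃ w, ∀ z ∈ D, f z = w) : InjOn f D := by
  intro z₁ h₁ z₂ h₂ he
  by_contra hne
  have hf : AnalyticOnNhd ℂ f D :=
    (h.differentiableOn (Eventually.of_forall hF) hD).analyticOnNhd hD
  have a1 : ∀ᶠ z in 𝓝[≠] z₂, f z ≠ f z₂ := by
    refine ((hf z₂ h₂).eventually_eq_or_eventually_ne analyticAt_const).resolve_left fun h0 => ?_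
    exact hnc ⟨f z₂, hf.eqOn_of_preconnected_of_eventuallyEq analyticOnNhd_const hc h₂ h0⟩
  have a2 : ∀ᶠ z in 𝓝 z₂, (z ≠ z₂ → f z ≠ f z₂) ∧ z ∈ D ∧ z ≠ z₁ :=
    (eventually_nhdsWithin_iff.1 a1).and ((hD.eventually_mem h₂).and
      (eventually_ne_nhds (Ne.symm hne)))
  obtain ⟨r, hr, a3⟩ := Metric.nhds_basis_closedBall.eventually_iff.1 a2
  have hsub : closedBall z₂ r ⊆ D := fun z hz => (a3 hz).2.1
  have hsub' : sphere z₂ r ⊆ D := sphere_subset_closedBall.trans hsub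
  obtain ⟨z₃, hz₃, hmin⟩ := (isCompact_sphere z₂ r).exists_isMinOn
    (NormedSpace.sphere_nonempty.2 hr.le) (f := fun z => ‖f z - f z₂‖)
    ((hf.continuousOn.mono hsub').sub continuousOn_const).norm
  have hε : 0 < ‖f z₃ - f z₂‖ := norm_pos_iff.2 (sub_ne_zero.2
    ((a3 (sphere_subset_closedBall hz₃)).1 (ne_of_mem_sphere hz₃ hr.ne')))
  set ε := ‖f z₃ - f z₂‖
  have b1 := Metric.tendstoUniformlyOn_iff.1
    ((tendstoLocallyUniformlyOn_iff_forall_isCompact hD).1 h _ hsub' (isCompact_sphere z₂ r))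
    (ε / 4) (by positivity)
  have b2 := Metric.tendsto_nhds.1 (h.tendsto_at h₁) (ε / 8) (by positivity)
  have b3 := Metric.tendsto_nhds.1 (h.tendsto_at h₂) (ε / 8) (by positivity)
  obtain ⟨n, c1, c2, c3⟩ := (b1.and (b2.and b3)).exists
  have key := DiffContOnCl.ball_subset_image_closedBall (f := F n) (z₀ := z₂) (ε := ε / 2)
    (((hF n).mono hsub).diffContOnCl_ball subset_rfl) hr (fun z hz => ?_) ?_
  · obtain ⟨w, hw, hw'⟩ := key (a := F n z₁) (by
      have := dist_triangle_right (F n z₁) (F n z₂) (f z₂)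
      rw [he] at c2
      exact mem_ball.2 (by linarith))
    exact (a3 hw).2.2 (hinj n (hsub hw) h₁ hw')
  · have d1 : ε ≤ dist (f z) (f z₂) := by rw [dist_eq_norm]; exact hmin hz
    have d2 := dist_triangle4 (f z) (F n z) (F n z₂) (f z₂)
    have d3 := c1 z hz
    rw [← dist_eq_norm]
    linarith
  · refine Frequently.filter_mono (Eventually.frequently ?_) (nhdsWithin_le_nhds (s := {z₂}ᶜ))
    filter_upwards [nhdsWithin_le_nhds (hD.mem_nhds h₂), self_mem_nhdsWithin] with z d1 d2 d3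
    exact d2 (hinj n d1 h₂ d3)

theorem rmt : Crest.Agent.R132.RMT := by
  intro D z₀ hD hc hb hz
  obtain ⟨M, hM, hDM⟩ := hb.subset_ball_lt 0 z₀
  have hM' : (M : ℂ) ≠ 0 := by exact_mod_cast hM.ne'
  have h0 : Fam D z₀ (fun z => (z - z₀) / M) := by
    refine ⟨by fun_prop, fun z _ w _ h => ?_, fun z h => ?_, by simp⟩
    · exact sub_left_inj.1 ((div_left_inj' hM').1 h)
    · rw [mem_ball_zero_iff, norm_div, Complex.norm_real, Real.norm_of_nonneg hM.le, div_lt_one hM]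
      simpa [dist_eq_norm] using hDM h
  obtain ⟨R, hR, hRD⟩ := Metric.isOpen_iff.1 hD z₀ hz
  let S : Set ℝ := {x | ∃ f, Fam D z₀ f ∧ ‖deriv f z₀‖ = x}
  have hS : BddAbove S := by
    refine ⟨1 / R, ?_⟩
    rintro _ ⟨f, hf, rfl⟩
    refine Complex.norm_deriv_le_div_of_mapsTo_ball (hf.diff.mono hRD) (fun w hw => ?_) hR
    rw [hf.zero]
    exact ball_subset_closedBall (hf.maps (hRD hw))
  obtain ⟨u, -, hu, huS⟩ := exists_seq_tendsto_sSup (S := S) ⟨_, _, h0, rfl⟩ hS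
  choose F hF hFu using huS
  obtain ⟨f, hf⟩ := montel hD F (Ultrafilter.of atTop) (fun n => (hF n).diff) fun n => (hF n).maps
  have hdiff := hf.differentiableOn (Eventually.of_forall fun n => (hF n).diff) hD
  have hder : ‖deriv f z₀‖ = sSup S := by
    have h1 := ((hf.deriv (Eventually.of_forall fun n => (hF n).diff) hD).tendsto_at hz).norm
    simp only [Function.comp, hFu] at h1
    exact tendsto_nhds_unique h1 (hu.mono_left (Ultrafilter.of_le _))
  have hnc : ¬ ∃ w, ∀ z ∈ D, f z = w := by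
    rintro ⟨w, hw⟩
    have h1 : deriv f z₀ = 0 := by
      rw [Filter.EventuallyEq.deriv_eq (f := fun _ => w) (by
        filter_upwards [hD.mem_nhds hz] with z h using hw z h), deriv_const]
    have h2 := le_csSup hS ⟨_, h0, rfl⟩
    rw [← hder, h1, norm_zero, norm_le_zero_iff] at h2
    exact deriv_ne_zero_of_injOn hD h0.diff h0.inj hz h2
  have hinj := hurwitz hD hc.isPathConnected.isConnected.isPreconnected (fun n => (hF n).diff)
    (fun n => (hF n).inj) hf hnc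
  obtain ⟨hop, g, hg, hgf⟩ := exists_inverse_of_injOn hD hdiff hinj
  have hmaps : f '' D ⊆ ball 0 1 := by
    rw [← interior_closedBall _ one_ne_zero]
    refine interior_maximal ?_ hop
    rintro _ ⟨z, h, rfl⟩
    exact isClosed_closedBall.mem_of_tendsto (hf.tendsto_at h)
      (Eventually.of_forall fun n => ball_subset_closedBall ((hF n).maps h))
  have hfam : Fam D z₀ f := ⟨hdiff, hinj, mapsTo_iff_image_subset.2 hmaps, by
    have := hf.tendsto_at hz
    simp only [fun n => (hF n).zero] at this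
    exact tendsto_nhds_unique this tendsto_const_nhds⟩
  have hsurj : f '' D = ball 0 1 := by
    refine hmaps.antisymm fun a ha => ?_
    by_contra hna
    obtain ⟨f', h1, h2⟩ := hfam.improve hD hc hz (mem_ball_zero_iff.1 ha) hna
    exact absurd (le_csSup hS ⟨_, h1, rfl⟩) (not_le.2 (hder ▸ h2))
  refine ⟨f, g, hdiff, hsurj ▸ hg, hfam.maps, fun v hv => ?_, hgf, fun v hv => ?_, hfam.zero⟩
  · obtain ⟨z, h, rfl⟩ := hsurj ▸ hv
    rwa [hgf z h]
  · obtain ⟨z, h, rfl⟩ := hsurj ▸ hv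
    rw [hgf z h]

end Crest.Agent.Lib.Conformal
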